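import Mathlib
import Vale.Agent.P123.Defs
import Vale.Agent.P123.Upper
import Vale.Agent.P123.Lower

/-!
The least constant in the numerical range inequality is `2`.
-/

namespace Vale.Agent.Results.P123.CrouzeixTwo

universe u

/-- The least admissible constant is exactly `2`. -/
theorem result : IsLeast {C : ℝ | Vale.Agent.P123.Admissible.{u} C} 2 :=
  ⟨Vale.Agent.P123.admissible_two, fun _ hC => Vale.Agent.P123.two_le_of_admissible hC⟩

end Vale.Agent.Results.P123.CrouzeixTwo
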